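import Vale.Agent.P141.H876.WinS

/-!
# P141, line (A): weak type bound for the moving slot at a point and at the neighbours

Letters of `H841.Lay` and `H876.WinS`.

* `weak_iv` : weak type inequality for a supersolution on the dyadic tree;
* `nbp`, `pot` : the slot at a cell and its two neighbours, and their potential; `pot_step`;
* `nb_max` : the measure of the set of all `x₀` such that the slot is large at some scale, at the
  cell of `y` or at one of its two neighbours, no loss: every `y`, all signs;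
* `nb_max_tr` : the same by the trace of the top matrices.
-/

namespace Vale.Agent.P141.H344.NbMax

open Finset Matrix
open Vale.Agent.P141.PL (iv ix hs mem_iv ix_ix card_iv)
open Vale.Agent.P141.H922 (ck)
open Vale.Agent.P141.H43 (nsq nsq_nonneg sum_iv_half)
open Vale.Agent.P141.H841
open Vale.Agent.P141.H876 (wn En near_root wt_Nn En_sumQ)
open Vale.Agent.P141.H420 (Tr)

noncomputable section

open scoped Classical

set_option linter.unusedSectionVars false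

/-! ### The tree -/

/-- **Weak type inequality for a supersolution.** -/
theorem weak_iv {n : ℕ} {Φ e : ℕ → ℤ → ℝ} (hΦ : ∀ j x, 0 ≤ Φ j x)
    (hinv : ∀ j x x', ix j x = ix j x' → Φ j x = Φ j x')
    (hstep : ∀ j, j < n → ∀ a, ∑ x ∈ iv (j + 1) a, Φ j x ≤ ∑ x ∈ iv (j + 1) a, (Φ (j + 1) x + e j x))
    (he : ∀ j x, 0 ≤ e j x) {κ : ℝ} (hκ : 0 ≤ κ) : ∀ k, k ≤ n → ∀ a,
    ∑ x ∈ iv k a, (if ∃ j ≤ k, κ ≤ Φ j x then κ else 0) ≤
      ∑ x ∈ iv k a, (Φ k x + ∑ i ∈ range k, e i x) := by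
  intro k
  induction k with
  | zero =>
    intro _ a
    refine sum_le_sum fun x _ => ?_
    rw [range_zero, sum_empty, add_zero]
    split_ifs with h
    · obtain ⟨j, hj, h⟩ := h
      have : j = 0 := by omega
      rw [this] at h
      exact h
    · exact hΦ 0 x
  | succ k ih =>
    intro hk a
    by_cases hc : ∃ x ∈ iv (k + 1) a, κ ≤ Φ (k + 1) x
    · obtain ⟨x, hx, hc⟩ := hc
      refine sum_le_sum fun z hz => ?_
      have e1 : Φ (k + 1) z = Φ (k + 1) x := by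
        refine hinv _ _ _ ?_
        rw [mem_iv] at hx hz
        rw [hx, hz]
      have e2 : 0 ≤ ∑ i ∈ range (k + 1), e i z := sum_nonneg fun i _ => he i z
      split_ifs
      · linarith
      · linarith [hΦ (k + 1) z]
    · have h1 : ∑ x ∈ iv (k + 1) a, (if ∃ j ≤ k + 1, κ ≤ Φ j x then κ else 0) =
          ∑ x ∈ iv (k + 1) a, (if ∃ j ≤ k, κ ≤ Φ j x then κ else 0) := by
        refine sum_congr rfl fun x hx => ?_
        refine if_congr ⟨?_, ?_⟩ rfl rfl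
        · rintro ⟨j, hj, h⟩
          rcases Nat.lt_or_ge j (k + 1) with h2 | h2
          · exact ⟨j, by omega, h⟩
          · have : j = k + 1 := by omega
            rw [this] at h
            exact absurd ⟨x, hx, h⟩ hc
        · rintro ⟨j, hj, h⟩
          exact ⟨j, by omega, h⟩
      rw [h1, sum_iv_half]
      refine (add_le_add (ih (by omega) (2 * a)) (ih (by omega) (2 * a + 1))).trans ?_
      rw [← sum_iv_half, sum_add_distrib]
      have h2 := hstep k (by omega) a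
      rw [sum_add_distrib] at h2
      have h3 : ∑ x ∈ iv (k + 1) a, (Φ (k + 1) x + ∑ i ∈ range (k + 1), e i x) =
          ∑ x ∈ iv (k + 1) a, Φ (k + 1) x + (∑ x ∈ iv (k + 1) a, ∑ i ∈ range k, e i x +
            ∑ x ∈ iv (k + 1) a, e k x) := by
        rw [sum_add_distrib, ← sum_add_distrib (f := fun x => ∑ i ∈ range k, e i x)]
        congr 1
        exact sum_congr rfl fun x _ => sum_range_succ _ _
      rw [h3]
      linarith

variable {ι : Type*} [Fintype ι] {Mx : ℕ → ℤ → Matrix ι ι ℝ} {o x1 : ℤ} {s : ℕ → ℤ → ℤ → ℝ}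
  {n : ℕ}

/-! ### The slot as a function of the cells -/

theorem ix_up {j i : ℕ} (h : j ≤ i) {x x' : ℤ} (e : ix j x = ix j x') : ix i x = ix i x' := by
  obtain ⟨d, rfl⟩ := Nat.exists_eq_add_of_le h
  rw [← ix_ix, ← ix_ix, e]

theorem hs_up {i : ℕ} {x x' : ℤ} (e : ix i x = ix i x') : hs (i + 1) x = hs (i + 1) x' := by
  unfold PL.hs
  rw [Nat.add_sub_cancel, e]

theorem Lm_cell {i : ℕ} {x0 x0' p p' : ℤ} (h0 : ix i x0 = ix i x0') (h : ix i p = ix i p') :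
    Lm Mx o x1 s (i + 1) x0 p = Lm Mx o x1 s (i + 1) x0' p' := by
  unfold Lm H922.ck
  rw [ix_up (Nat.le_succ i) h0, ix_up (Nat.le_succ i) h, hs_up h0, hs_up h]

theorem Rm_cell {j : ℕ} {x0 x0' p p' : ℤ} (h0 : ix j x0 = ix j x0') (h : ix j p = ix j p') :
    Rm Mx o x1 s n j x0 p = Rm Mx o x1 s n j x0' p' := by
  unfold Rm
  refine sum_congr rfl fun i hi => ?_
  rw [mem_Ico] at hi
  exact Lm_cell (ix_up hi.1 h0) (ix_up hi.1 h)

theorem Rm_succ {j : ℕ} (hj : j < n) (x0 p : ℤ) :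
    Rm Mx o x1 s n j x0 p = Lm Mx o x1 s (j + 1) x0 p + Rm Mx o x1 s n (j + 1) x0 p := by
  unfold Rm
  rw [sum_eq_sum_Ico_succ_bot hj]

theorem Rm_top (x0 p : ℤ) : Rm Mx o x1 s n n x0 p = 0 := by
  unfold Rm
  rw [Ico_self, sum_empty]

/-- the point of the neighbour cell -/
def nbp (y : ℤ) (j : ℕ) (d : ℤ) : ℤ := y + 2 ^ j * d

theorem ix_nbp (y : ℤ) (j : ℕ) (d : ℤ) : ix j (nbp y j d) = ix j y + d := by
  unfold PL.ix nbp
  rw [Int.add_mul_ediv_left _ _ (by positivity : (2 : ℤ) ^ j ≠ 0)]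

/-- the slot vector at the neighbour cell -/
def rv (Mx : ℕ → ℤ → Matrix ι ι ℝ) (o x1 : ℤ) (s : ℕ → ℤ → ℤ → ℝ) (n : ℕ) (y : ℤ) (w : ι → ℝ)
    (j : ℕ) (x0 d : ℤ) : ι → ℝ := Rm Mx o x1 s n j x0 (nbp y j d) *ᵥ w

/-- the potential -/
def pot (Mx : ℕ → ℤ → Matrix ι ι ℝ) (o x1 : ℤ) (s : ℕ → ℤ → ℤ → ℝ) (n : ℕ) (y : ℤ) (w : ι → ℝ)
    (j : ℕ) (x0 : ℤ) : ℝ :=
  nsq (rv Mx o x1 s n y w j x0 0) + nsq (rv Mx o x1 s n y w j x0 (-1) - rv Mx o x1 s n y w j x0 0) +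
    nsq (rv Mx o x1 s n y w j x0 1 - rv Mx o x1 s n y w j x0 0)

/-- the energy of the layer `j + 1` at the three cells -/
def en3 (Mx : ℕ → ℤ → Matrix ι ι ℝ) (o x1 : ℤ) (y : ℤ) (w : ι → ℝ) (j : ℕ) (x0 : ℤ) : ℝ :=
  5 * (Nn Mx o x1 (j + 1) x0 (nbp y j 0) w + Nn Mx o x1 (j + 1) x0 (nbp y j (-1)) w +
    Nn Mx o x1 (j + 1) x0 (nbp y j 1) w)

theorem pot_nonneg (y : ℤ) (w : ι → ℝ) (j : ℕ) (x0 : ℤ) : 0 ≤ pot Mx o x1 s n y w j x0 := by
  unfold pot
  have h1 := nsq_nonneg (rv Mx o x1 s n y w j x0 0)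
  have h2 := nsq_nonneg (rv Mx o x1 s n y w j x0 (-1) - rv Mx o x1 s n y w j x0 0)
  have h3 := nsq_nonneg (rv Mx o x1 s n y w j x0 1 - rv Mx o x1 s n y w j x0 0)
  linarith

theorem en3_nonneg (y : ℤ) (w : ι → ℝ) (j : ℕ) (x0 : ℤ) : 0 ≤ en3 Mx o x1 y w j x0 := by
  unfold en3
  have h1 := Nn_nonneg Mx o x1 (j + 1) x0 (nbp y j 0) w
  have h2 := Nn_nonneg Mx o x1 (j + 1) x0 (nbp y j (-1)) w
  have h3 := Nn_nonneg Mx o x1 (j + 1) x0 (nbp y j 1) w
  linarith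

theorem pot_inv (y : ℤ) (w : ι → ℝ) (j : ℕ) (x0 x0' : ℤ) (h : ix j x0 = ix j x0') :
    pot Mx o x1 s n y w j x0 = pot Mx o x1 s n y w j x0' := by
  have e : ∀ d, rv Mx o x1 s n y w j x0 d = rv Mx o x1 s n y w j x0' d := fun d => by
    unfold rv
    rw [Rm_cell h rfl]
  unfold pot
  rw [e, e, e]

theorem pot_top (y : ℤ) (w : ι → ℝ) (x0 : ℤ) : pot Mx o x1 s n y w n x0 = 0 := by
  have e : ∀ d, rv Mx o x1 s n y w n x0 d = 0 := fun d => by
    unfold rv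
    rw [Rm_top, zero_mulVec]
  unfold pot
  rw [e, e, e, sub_zero, nsq_zero]
  norm_num

/-- the layer with the sign of `x₀` taken out -/
def lv (Mx : ℕ → ℤ → Matrix ι ι ℝ) (o x1 : ℤ) (s : ℕ → ℤ → ℤ → ℝ) (y : ℤ) (w : ι → ℝ) (j : ℕ)
    (a d : ℤ) : ι → ℝ :=
  (s (j + 1) a (ix (j + 1) (nbp y j d)) * hs (j + 1) (nbp y j d)) •
    (Mx (j + 1) (ck o x1 (nbp y j d) (j + 1) - a) *ᵥ w)

theorem Lm_lv (y : ℤ) (w : ι → ℝ) (j : ℕ) (x0 d : ℤ) :
    Lm Mx o x1 s (j + 1) x0 (nbp y j d) *ᵥ w =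
      hs (j + 1) x0 • lv Mx o x1 s y w j (ix (j + 1) x0) d := by
  unfold Lm lv
  rw [smul_mulVec, smul_smul]
  congr 1
  ring

theorem nsq_lv (hs1 : ∀ k a b, |s k a b| ≤ 1) (y : ℤ) (w : ι → ℝ) (j : ℕ) (x0 d : ℤ) :
    nsq (lv Mx o x1 s y w j (ix (j + 1) x0) d) ≤ Nn Mx o x1 (j + 1) x0 (nbp y j d) w := by
  have h := Lm_le (Mx := Mx) (o := o) (x1 := x1) hs1 (j + 1) x0 (nbp y j d) w
  rw [Lm_lv, nsq_smul, sq, PL.hs_mul_self, one_mul] at h
  exact h

theorem nbp_zero (y : ℤ) (j : ℕ) : nbp y j 0 = y := by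
  unfold nbp
  ring

/-- the parent of a neighbour: the neighbour of the parent or the parent -/
theorem par_nb (y : ℤ) (j : ℕ) (d : ℤ) (hd : d = -1 ∨ d = 0 ∨ d = 1) :
    ix (j + 1) (nbp y j d) = ix (j + 1) (nbp y (j + 1) d) ∨
      ix (j + 1) (nbp y j d) = ix (j + 1) (nbp y (j + 1) 0) := by
  rw [ix_nbp, nbp_zero, ix_half, ix_nbp, ix_half]
  omega

/-- exactly one of the two neighbours forgets -/
theorem par_two (y : ℤ) (j : ℕ) :
    (ix (j + 1) (nbp y j (-1)) = ix (j + 1) (nbp y (j + 1) (-1)) ∧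
      ix (j + 1) (nbp y j 1) = ix (j + 1) (nbp y (j + 1) 0)) ∨
    (ix (j + 1) (nbp y j (-1)) = ix (j + 1) (nbp y (j + 1) 0) ∧
      ix (j + 1) (nbp y j 1) = ix (j + 1) (nbp y (j + 1) 1)) := by
  rw [ix_nbp, nbp_zero, ix_nbp, ix_half, ix_half, ix_half, ix_nbp, ix_nbp]
  omega

theorem ix_self (y : ℤ) (j : ℕ) : ix (j + 1) (nbp y j 0) = ix (j + 1) (nbp y (j + 1) 0) := by
  rw [nbp_zero, nbp_zero]

/-- the signs of `x₀` cancel over a cell -/
theorem hs_zero (j : ℕ) (a : ℤ) : ∑ x ∈ iv (j + 1) a, hs (j + 1) x = 0 := by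
  rw [sum_iv_half]
  have h1 : ∀ x ∈ iv j (2 * a), hs (j + 1) x = 1 := by
    intro x hx
    rw [mem_iv] at hx
    unfold PL.hs
    rw [Nat.add_sub_cancel, hx, if_pos (by omega)]
  have h2 : ∀ x ∈ iv j (2 * a + 1), hs (j + 1) x = -1 := by
    intro x hx
    rw [mem_iv] at hx
    unfold PL.hs
    rw [Nat.add_sub_cancel, hx, if_neg (by omega)]
  rw [sum_congr rfl h1, sum_congr rfl h2, sum_const, sum_const, card_iv, card_iv]
  simp

theorem nsq_sgn {h : ℝ} (hh : h * h = 1) (u v : ι → ℝ) :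
    nsq (h • v + u) = nsq u + nsq v + h * (2 * (u ⬝ᵥ v)) := by
  rw [H43.nsq_add, nsq_smul, sq, hh, smul_dotProduct, smul_eq_mul, dotProduct_comm v u]
  ring

/-- **One step of the potential.** -/
theorem pot_step (hs1 : ∀ k a b, |s k a b| ≤ 1) (y : ℤ) (w : ι → ℝ) (j : ℕ) (hj : j < n) (a : ℤ) :
    ∑ x ∈ iv (j + 1) a, pot Mx o x1 s n y w j x ≤
      ∑ x ∈ iv (j + 1) a, (pot Mx o x1 s n y w (j + 1) x + en3 Mx o x1 y w j x) := by
  set V : ℤ → ι → ℝ := fun d => lv Mx o x1 s y w j a d with hV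
  set β : ℤ → ι → ℝ := fun d =>
    Rm Mx o x1 s n (j + 1) (2 ^ (j + 1) * a) (nbp y j d) *ᵥ w with hβ
  set G : ℝ := 2 * (β 0 ⬝ᵥ V 0) + 2 * ((β (-1) - β 0) ⬝ᵥ (V (-1) - V 0)) +
    2 * ((β 1 - β 0) ⬝ᵥ (V 1 - V 0)) with hG
  have ha : ix (j + 1) (2 ^ (j + 1) * a) = a := by
    unfold PL.ix
    exact Int.mul_ediv_cancel_left _ (by positivity : (2 : ℤ) ^ (j + 1) ≠ 0)
  have key : ∀ x ∈ iv (j + 1) a, pot Mx o x1 s n y w j x ≤
      (pot Mx o x1 s n y w (j + 1) x + en3 Mx o x1 y w j x) + hs (j + 1) x * G := by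
    intro x hx
    rw [mem_iv] at hx
    have hh := PL.hs_mul_self (j + 1) x
    have e1 : ∀ d, rv Mx o x1 s n y w j x d = hs (j + 1) x • V d + β d := by
      intro d
      unfold rv
      rw [Rm_succ hj, Matrix.add_mulVec, Lm_lv, hx, Rm_cell (x0' := 2 ^ (j + 1) * a) (hx.trans ha.symm) rfl]
    have e2 : ∀ d, rv Mx o x1 s n y w j x d - rv Mx o x1 s n y w j x 0 =
        hs (j + 1) x • (V d - V 0) + (β d - β 0) := by
      intro d
      rw [e1, e1, smul_sub]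
      abel
    have e3 : pot Mx o x1 s n y w j x = nsq (β 0) + nsq (V 0) + (nsq (β (-1) - β 0) +
        nsq (V (-1) - V 0)) + (nsq (β 1 - β 0) + nsq (V 1 - V 0)) + hs (j + 1) x * G := by
      unfold pot
      rw [e2, e2, e1, nsq_sgn hh, nsq_sgn hh, nsq_sgn hh, hG]
      ring
    have v0 := nsq_lv (Mx := Mx) (o := o) (x1 := x1) hs1 y w j x 0
    have vm := nsq_lv (Mx := Mx) (o := o) (x1 := x1) hs1 y w j x (-1)
    have vp := nsq_lv (Mx := Mx) (o := o) (x1 := x1) hs1 y w j x 1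
    rw [hx] at v0 vm vp
    have d1 := nsq_sub_le (V (-1)) (V 0)
    have d2 := nsq_sub_le (V 1) (V 0)
    have b0 : β 0 = rv Mx o x1 s n y w (j + 1) x 0 := by
      unfold rv
      rw [hβ]
      beta_reduce
      rw [Rm_cell (ha.trans hx.symm) (ix_self y j)]
    have par : nsq (β (-1) - β 0) + nsq (β 1 - β 0) ≤
        nsq (rv Mx o x1 s n y w (j + 1) x (-1) - rv Mx o x1 s n y w (j + 1) x 0) +
        nsq (rv Mx o x1 s n y w (j + 1) x 1 - rv Mx o x1 s n y w (j + 1) x 0) := by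
      have n1 := nsq_nonneg (rv Mx o x1 s n y w (j + 1) x (-1) - rv Mx o x1 s n y w (j + 1) x 0)
      have n2 := nsq_nonneg (rv Mx o x1 s n y w (j + 1) x 1 - rv Mx o x1 s n y w (j + 1) x 0)
      rcases par_two y j with ⟨h1, h2⟩ | ⟨h1, h2⟩
      · have b1 : β (-1) = rv Mx o x1 s n y w (j + 1) x (-1) := by
          unfold rv
          rw [hβ]
          beta_reduce
          rw [Rm_cell (ha.trans hx.symm) h1]
        have b2 : β 1 = rv Mx o x1 s n y w (j + 1) x 0 := by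
          unfold rv
          rw [hβ]
          beta_reduce
          rw [Rm_cell (ha.trans hx.symm) h2]
        rw [b0, b1, b2, sub_self (rv Mx o x1 s n y w (j + 1) x 0), nsq_zero]
        linarith
      · have b1 : β (-1) = rv Mx o x1 s n y w (j + 1) x 0 := by
          unfold rv
          rw [hβ]
          beta_reduce
          rw [Rm_cell (ha.trans hx.symm) h1]
        have b2 : β 1 = rv Mx o x1 s n y w (j + 1) x 1 := by
          unfold rv
          rw [hβ]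
          beta_reduce
          rw [Rm_cell (ha.trans hx.symm) h2]
        rw [b0, b1, b2, sub_self (rv Mx o x1 s n y w (j + 1) x 0), nsq_zero]
        linarith
    have hp : pot Mx o x1 s n y w (j + 1) x = nsq (β 0) +
        (nsq (rv Mx o x1 s n y w (j + 1) x (-1) - rv Mx o x1 s n y w (j + 1) x 0) +
        nsq (rv Mx o x1 s n y w (j + 1) x 1 - rv Mx o x1 s n y w (j + 1) x 0)) := by
      unfold pot
      rw [b0]
      ring
    have q0 := nsq_nonneg (V 0)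
    have q1 := nsq_nonneg (V (-1))
    have q2 := nsq_nonneg (V 1)
    rw [e3, hp]
    unfold en3
    linarith
  refine (sum_le_sum key).trans (le_of_eq ?_)
  rw [sum_add_distrib (f := fun x => pot Mx o x1 s n y w (j + 1) x + en3 Mx o x1 y w j x),
    ← sum_mul, hs_zero, zero_mul, add_zero]

/-! ### The neighbours of a point -/

variable [DecidableEq ι]

/-- squared Hilbert-Schmidt norm of the slot -/
def Hs (Mx : ℕ → ℤ → Matrix ι ι ℝ) (o x1 : ℤ) (s : ℕ → ℤ → ℤ → ℝ) (n j : ℕ) (x0 p : ℤ) : ℝ :=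
  ∑ a, nsq (Rm Mx o x1 s n j x0 p *ᵥ Pi.single a 1)

/-- the sum of the potentials over the basis -/
def Pot (Mx : ℕ → ℤ → Matrix ι ι ℝ) (o x1 : ℤ) (s : ℕ → ℤ → ℤ → ℝ) (n : ℕ) (y : ℤ)
    (j : ℕ) (x0 : ℤ) : ℝ := ∑ a, pot Mx o x1 s n y (Pi.single a 1) j x0

theorem Hs_le (y : ℤ) (j : ℕ) (x0 : ℤ) {p : ℤ} (hp : |ix j p - ix j y| ≤ 1) :
    Hs Mx o x1 s n j x0 p ≤ 2 * Pot Mx o x1 s n y j x0 := by
  unfold Hs Pot
  rw [mul_sum]
  refine sum_le_sum fun a _ => ?_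
  set w : ι → ℝ := Pi.single a 1
  have n0 := nsq_nonneg (rv Mx o x1 s n y w j x0 0)
  have n1 := nsq_nonneg (rv Mx o x1 s n y w j x0 (-1) - rv Mx o x1 s n y w j x0 0)
  have n2 := nsq_nonneg (rv Mx o x1 s n y w j x0 1 - rv Mx o x1 s n y w j x0 0)
  have e : ∀ d, ix j p = ix j y + d →
      Rm Mx o x1 s n j x0 p *ᵥ w = rv Mx o x1 s n y w j x0 d := by
    intro d h
    unfold rv
    rw [Rm_cell rfl (h.trans (ix_nbp y j d).symm)]
  have hd : ix j p = ix j y + 0 ∨ ix j p = ix j y + (-1) ∨ ix j p = ix j y + 1 := by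
    rw [abs_le] at hp
    omega
  unfold pot
  rcases hd with h | h | h
  · rw [e 0 h]
    linarith
  · rw [e (-1) h]
    have h2 := nsq_add_le (rv Mx o x1 s n y w j x0 (-1) - rv Mx o x1 s n y w j x0 0)
      (rv Mx o x1 s n y w j x0 0)
    rw [sub_add_cancel] at h2
    linarith
  · rw [e 1 h]
    have h2 := nsq_add_le (rv Mx o x1 s n y w j x0 1 - rv Mx o x1 s n y w j x0 0)
      (rv Mx o x1 s n y w j x0 0)
    rw [sub_add_cancel] at h2
    linarith

/-- the energies of a layer at the three cells, sum over `x₀` -/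
theorem en3_sum {T M3 : ℤ} (ho : o = 1 ∨ o = -1) {j : ℕ} (hj : j < n) {y : ℤ} (hy : ix n y = M3)
    (w : ι → ℝ) : ∑ x0 ∈ iv n T, en3 Mx o x1 y w j x0 ≤ 15 * En Mx n T x1 M3 (j + 1) w := by
  have h0 : ∀ d : ℤ, d = 0 ∨ d = -1 ∨ d = 1 →
      ∑ x0 ∈ iv n T, Nn Mx o x1 (j + 1) x0 (nbp y j d) w ≤ En Mx n T x1 M3 (j + 1) w := by
    intro d hd
    have hp : (0 : ℤ) < 2 ^ j := by positivity
    have h1 : y - 2 ^ j ≤ nbp y j d := by
      unfold nbp
      rcases hd with rfl | rfl | rfl <;> linarith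
    have h2 : nbp y j d ≤ y + 2 ^ j := by
      unfold nbp
      rcases hd with rfl | rfl | rfl <;> linarith
    obtain ⟨b1, b2⟩ := near_root hj.le h1 h2
    rw [hy] at b1 b2
    have h3 := wt_Nn (Mx := Mx) (T := T) (x1 := x1) ho (W := fun _ => (1 : ℝ)) (e := 1) (k := 0)
      (fun _ => zero_le_one) (fun m => by rw [sum_const, card_iv]; simp) (i := j + 1) hj b1 b2 w
    simp only [one_mul, Nat.zero_sub, pow_zero] at h3
    exact h3
  unfold en3
  rw [← mul_sum, sum_add_distrib, sum_add_distrib]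
  have h1 := h0 0 (Or.inl rfl)
  have h2 := h0 (-1) (Or.inr (Or.inl rfl))
  have h3 := h0 1 (Or.inr (Or.inr rfl))
  linarith

/-- **The slot is large at some scale, at the cell of `y` or at a neighbour of it**: the measure
of these `x₀`; every `y`, all signs, no loss. -/
theorem nb_max (hs1 : ∀ k a b, |s k a b| ≤ 1) (ho : o = 1 ∨ o = -1) {T M3 y : ℤ}
    (hy : ix n y = M3) {q : ℝ} (hq : 0 ≤ q) :
    (((iv n T).filter fun x0 => ∃ j ≤ n, ∃ p, |ix j p - ix j y| ≤ 1 ∧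
      q ≤ Hs Mx o x1 s n j x0 p).card : ℝ) * q ≤
      30 * ∑ i ∈ range n, ∑ a, En Mx n T x1 M3 (i + 1) (Pi.single a 1) := by
  set e : ℕ → ℤ → ℝ := fun j x0 => ∑ a, en3 Mx o x1 y (Pi.single a 1) j x0 with he
  have h1 := weak_iv (n := n) (Φ := Pot Mx o x1 s n y) (e := e) (κ := q / 2)
    (fun j x => sum_nonneg fun a _ => pot_nonneg _ _ _ _)
    (fun j x x' h => sum_congr rfl fun a _ => pot_inv _ _ _ _ _ h)
    (fun j hj a => by
      have h2 := sum_le_sum fun (c : ι) (_ : c ∈ univ) =>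
        pot_step (Mx := Mx) (o := o) (x1 := x1) hs1 y (Pi.single c 1) j hj a
      rw [sum_comm (s := univ), sum_comm (s := univ)] at h2
      refine h2.trans (le_of_eq (sum_congr rfl fun x _ => ?_))
      rw [sum_add_distrib]
      rfl)
    (fun j x => sum_nonneg fun a _ => en3_nonneg _ _ _ _) (by linarith) n le_rfl T
  have h2 : ∀ x, Pot Mx o x1 s n y n x = 0 := fun x => by
    unfold Pot
    exact sum_eq_zero fun a _ => pot_top _ _ _
  have h3 : ∑ x ∈ iv n T, (Pot Mx o x1 s n y n x + ∑ i ∈ range n, e i x) ≤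
      15 * ∑ i ∈ range n, ∑ a, En Mx n T x1 M3 (i + 1) (Pi.single a 1) := by
    simp only [h2, zero_add]
    rw [sum_comm, mul_sum]
    refine sum_le_sum fun i hi => ?_
    rw [he]
    beta_reduce
    rw [sum_comm, mul_sum]
    exact sum_le_sum fun a _ => en3_sum ho (mem_range.1 hi) hy _
  have h4 : (((iv n T).filter fun x0 => ∃ j ≤ n, ∃ p, |ix j p - ix j y| ≤ 1 ∧
      q ≤ Hs Mx o x1 s n j x0 p).card : ℝ) * (q / 2) ≤
      ∑ x ∈ iv n T, (if ∃ j ≤ n, q / 2 ≤ Pot Mx o x1 s n y j x then q / 2 else 0) := by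
    rw [← sum_filter, ← nsmul_eq_mul, ← sum_const]
    refine sum_le_sum_of_subset_of_nonneg (fun x hx => ?_) fun _ _ _ => by linarith
    rw [mem_filter] at hx ⊢
    obtain ⟨hx, j, hj, p, hp, h⟩ := hx
    refine ⟨hx, j, hj, ?_⟩
    have h5 := Hs_le (Mx := Mx) (o := o) (x1 := x1) (s := s) (n := n) y j x hp
    linarith
  linarith

/-- **The same by the trace of the top matrices.** -/
theorem nb_max_tr (hs1 : ∀ k a b, |s k a b| ≤ 1) (ho : o = 1 ∨ o = -1)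
    {T M3 y : ℤ} (hy : ix n y = M3) {l : ℝ} {G K : ℕ → ℤ → Matrix ι ι ℝ} (h : Tr l n G K)
    (hM : ∀ k m a, Mx k m *ᵥ a = H483.mT l K k m a) {q : ℝ} (hq : 0 ≤ q) :
    (((iv n T).filter fun x0 => ∃ j ≤ n, ∃ p, |ix j p - ix j y| ≤ 1 ∧
      q ≤ Hs Mx o x1 s n j x0 p).card : ℝ) * q ≤
      30 * (2 ^ n * ((2 * l)⁻¹ * ∑ R ∈ wn n T x1 M3, (G n R).trace)) := by
  refine (nb_max hs1 ho hy hq).trans (mul_le_mul_of_nonneg_left ?_ (by norm_num))
  rw [sum_comm]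
  have h1 : ∀ a ∈ (univ : Finset ι), ∑ i ∈ range n, En Mx n T x1 M3 (i + 1) (Pi.single a 1) ≤
      2 ^ n * ((2 * l)⁻¹ * ∑ R ∈ wn n T x1 M3, G n R a a) := by
    intro a _
    refine (En_sumQ (T := T) (x1 := x1) (M3 := M3) h hM (Pi.single a (1 : ℝ))).trans (le_of_eq ?_)
    congr 2
    refine sum_congr rfl fun R _ => ?_
    rw [single_one_dotProduct, mulVec_single_one]
    rfl
  refine (sum_le_sum h1).trans (le_of_eq ?_)
  rw [← mul_sum, ← mul_sum, sum_comm]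
  rfl

end

end Vale.Agent.P141.H344.NbMax
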